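import Vale.Agent.P007.RMain
import Vale.Agent.P007.Main
import Vale.Agent.P007.HEx

open MeasureTheory Filter Topology
open Vale.Agent.P007

theorem Vale.Agent.Results.P007.PrimeIff.result :
    (∀ (m : ℕ) (D : Datum (m + 1)), D.packet.Finite ∧ D.packet.Nonempty ∧
      ∀ S ∈ D.packet, IsCompact S ∧ 0 < vol S ∧ ∃! ν, IsOrbitMeasure S ν) ∧
    (∀ m : ℕ, ∃! μ : Measure (X (m + 1)), IsInvariantProb μ) ∧
    ∀ m : ℕ, 3 ≤ m → (Equidistributes m ↔ (m + 1).Prime) := by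
  refine ⟨fun m D => ?_, fun m => existsUnique_of_exists_of_unique (TP.HEx_ex TP.t_ExSec TP.t_LiftA)
    (TP.t_UNI _), fun m hm => ⟨fun h => ?_, fun hp => TP.t_Lim m hp (by omega)⟩⟩
  · obtain ⟨a, b, c, -⟩ := TP.t_PackA m D
    exact ⟨a, b, fun S hS => ⟨(c S hS).2.1, (c S hS).1, (c S hS).2.2⟩⟩
  · by_contra hp
    obtain ⟨D, C, -, hdisc, hθ⟩ := exists_sequence (m + 1) (by omega) hp
    obtain ⟨f, -, hpos, hf⟩ := exists_test (m + 1) (by omega) C
    have hν : ∀ (i : ℕ) (S : Set (X (m + 1))), ∃ ν, S ∈ (D i).packet → IsOrbitMeasure S ν := by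
      intro i S
      by_cases hS : S ∈ (D i).packet
      · obtain ⟨ν, h1, -⟩ := ((TP.t_PackA m (D i)).2.2.1 S hS).2.2
        exact ⟨ν, fun _ => h1⟩
      · exact ⟨0, fun h => absurd h hS⟩
    choose ν hν using hν
    obtain ⟨μ, hμ, hconv, -⟩ := h D hdisc ν fun i S hS => hν i S hS
    have h0 : ∀ i, ∫ x, f x ∂((D i).measure (ν i)) = 0 := fun i => by
      refine integral_eq_zero_of_ae ?_
      have : ∀ᵐ x ∂((D i).measure (ν i)), x ∈ ⋃₀ (D i).packet :=
        ((TP.t_PackA m (D i)).2.2.2 (ν i) (hν i)).2.1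
      exact this.mono (hf _ (hθ i))
    have h1 := hconv f
    simp only [h0] at h1
    exact (hpos μ hμ.1 hμ.2).ne (tendsto_nhds_unique tendsto_const_nhds h1)
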